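import Vale.Agent.Lib.P371.SharpCore

/-! The eigenvalue bound with the sharp constant. -/

open MeasureTheory Set Filter Topology Matrix

namespace Vale.Agent.Lib.P371.Sharp

noncomputable section

variable {N : ℕ}

/-- The eigenvalue bound from the sharp kinetic inequality. -/
theorem lt_scalar_sharp {t : ℝ} (ht : 0 < t) (hK : 1 / (3 * t ^ 2) ≤ Real.pi ^ 2 / 4)
    (W : ℝ → ℝ) (hWm : Measurable W) (hW0 : ∀ x, 0 ≤ W x)
    (hint : Integrable fun x => W x ^ (3 / 2 : ℝ))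
    (ψ ψ' : Fin N → ℝ → ℂ) (hψ : ∀ j, ScalarH1 (ψ j) (ψ' j)) (lam : Fin N → ℝ)
    (horth : ∀ j k, ∫ x, star (ψ j x) * ψ k x = if j = k then (1 : ℂ) else 0)
    (hneg : ∀ j, lam j < 0)
    (heig : ∀ j (φ φ' : ℝ → ℂ), ScalarH1 φ φ' →
      (∫ x, star (φ' x) * ψ' j x) - (∫ x, star (φ x) * ((W x : ℂ) * ψ j x)) =
        (lam j : ℂ) * ∫ x, star (φ x) * ψ j x) :
    ∑ j, |lam j| ≤ 2 * t / 3 * ∫ x, W x ^ (3 / 2 : ℝ) := by
  obtain ⟨g, hF, hT⟩ := fam0_reim hψ horth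
  have hcore := sharp_kinetic hF
  rw [hT] at hcore
  set K₀ := 1 / (3 * t ^ 2) with hK₀
  have hK₀0 : 0 ≤ K₀ := by positivity
  have hrho3 := hF.rho3_integrable zero_le_one
  have hrho : ∀ y, rho (reim ψ) y = ∑ j, ‖ψ j y‖ ^ 2 := rho_reim ψ
  have hcont : ∀ j, Continuous (ψ j) := fun j => (hψ j).continuous
  have hmaj : Integrable fun x => 2 * t / 3 * W x ^ (3 / 2 : ℝ) + K₀ * rho (reim ψ) x ^ 3 :=
    (hint.const_mul _).add (hrho3.const_mul _)
  have hVi : ∀ j, Integrable fun x => W x * ‖ψ j x‖ ^ 2 := by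
    intro j
    refine hmaj.mono' (hWm.mul ((hcont j).norm.measurable.pow_const 2)).aestronglyMeasurable
      (ae_of_all _ fun x => ?_)
    have h0 : 0 ≤ W x * ‖ψ j x‖ ^ 2 := mul_nonneg (hW0 x) (by positivity)
    rw [Real.norm_eq_abs, abs_of_nonneg h0]
    have h1 : ‖ψ j x‖ ^ 2 ≤ rho (reim ψ) x := by
      rw [hrho]
      exact Finset.single_le_sum (f := fun j => ‖ψ j x‖ ^ 2) (fun j _ => by positivity)
        (Finset.mem_univ j)
    calc W x * ‖ψ j x‖ ^ 2 ≤ W x * rho (reim ψ) x := mul_le_mul_of_nonneg_left h1 (hW0 x)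
      _ ≤ _ := young_t (hW0 x) (Fam.rho_nonneg _ x) ht
  have key : ∀ j, |lam j| = (∫ x, W x * ‖ψ j x‖ ^ 2) - ∫ x, ‖ψ' j x‖ ^ 2 := by
    intro j
    have h1 := heig j (ψ j) (ψ' j) (hψ j)
    have e1 : ∀ x, star (ψ' j x) * ψ' j x = ((‖ψ' j x‖ ^ 2 : ℝ) : ℂ) := fun x =>
      (norm_sq_eq_star_mul _).symm
    have e2 : ∀ x, star (ψ j x) * ((W x : ℂ) * ψ j x) = ((W x * ‖ψ j x‖ ^ 2 : ℝ) : ℂ) := fun x => by
      rw [Complex.ofReal_mul, norm_sq_eq_star_mul]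
      ring
    simp_rw [e1, e2] at h1
    rw [integral_complex_ofReal, integral_complex_ofReal, horth j j, if_pos rfl, mul_one] at h1
    have h2 : (∫ x, ‖ψ' j x‖ ^ 2) - (∫ x, W x * ‖ψ j x‖ ^ 2) = lam j := by
      exact_mod_cast h1
    rw [abs_of_neg (hneg j), ← h2]
    ring
  simp_rw [key]
  rw [Finset.sum_sub_distrib, ← integral_finsetSum _ fun j _ => hVi j]
  have e3 : ∀ x, ∑ j, W x * ‖ψ j x‖ ^ 2 = W x * rho (reim ψ) x := fun x => by
    rw [hrho, Finset.mul_sum]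
  simp_rw [e3]
  have hVi2 : Integrable fun x => W x * rho (reim ψ) x := by
    have := integrable_finsetSum Finset.univ fun j _ => hVi j
    refine this.congr (ae_of_all _ fun x => ?_)
    exact e3 x
  have h4 : ∫ x, W x * rho (reim ψ) x ≤
      2 * t / 3 * (∫ x, W x ^ (3 / 2 : ℝ)) + K₀ * ∫ x, rho (reim ψ) x ^ 3 := by
    rw [← integral_const_mul, ← integral_const_mul, ← integral_add (hint.const_mul _)
      (hrho3.const_mul _)]
    exact integral_mono hVi2 hmaj fun x => young_t (hW0 x) (Fam.rho_nonneg _ x) ht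
  have hY0 : 0 ≤ ∫ x, rho (reim ψ) x ^ 3 :=
    integral_nonneg fun x => pow_nonneg (Fam.rho_nonneg _ x) 3
  have h5 : K₀ * ∫ x, rho (reim ψ) x ^ 3 ≤ Real.pi ^ 2 / 4 * ∫ x, rho (reim ψ) x ^ 3 :=
    mul_le_mul_of_nonneg_right hK hY0
  linarith

end

end Vale.Agent.Lib.P371.Sharp
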